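import Vale.Agent.P269.Z.Nice0
import Vale.Agent.P269.Z.Coul0Lem

/-!
# Equivariant Borel-Moore homology `EH G Z` for a system, and the operations on it
-/

namespace Vale.Agent.P291Z

open Set Function Topology

variable (G : Type) [Group G] [TopologicalSpace G] [Sys G] (Z : Type) [TopologicalSpace Z]
  [MulAction G Z]

/-- Compatible families of degree `k`. -/
noncomputable def FamS (k : ℤ) : Submodule ℂ (∀ M, BM (Bq G Z M)) where
  carrier := {β | ∀ M, Gys (binc G Z M) (ecol G Z M) (β (M + 1)) (β M) ∧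
    BM.IsDeg (k + 2 * Sys.dim G M) (β M)}
  zero_mem' _ := ⟨Gys.zero _ _, fun _ a _ _ => ev_zero a⟩
  add_mem' h h' M := ⟨(h M).1.add (h' M).1, fun j a hj ha => by
    rw [Pi.add_apply, ev_add, (h M).2 j a hj ha, (h' M).2 j a hj ha, add_zero]⟩
  smul_mem' c _ h M := ⟨(h M).1.smul c, fun j a hj ha => by
    rw [Pi.smul_apply, ev_smul, (h M).2 j a hj ha, mul_zero]⟩

/-- Finite sums of homogeneous compatible families. -/
noncomputable def EHs : Submodule ℂ (∀ M, BM (Bq G Z M)) := ⨆ k, FamS G Z k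

/-- Equivariant Borel-Moore homology. -/
def EH : Type := EHs G Z

noncomputable instance : AddCommGroup (EH G Z) := inferInstanceAs (AddCommGroup (EHs G Z))

noncomputable instance : Module ℂ (EH G Z) := inferInstanceAs (Module ℂ (EHs G Z))

/-- The part of degree `k`. -/
noncomputable def EH.deg (k : ℤ) : Submodule ℂ (EH G Z) := (FamS G Z k).comap (EHs G Z).subtype

variable {G Z}

/-- The element given by a homogeneous family. -/
def EH.mk {k : ℤ} (β : ∀ M, BM (Bq G Z M)) (h : β ∈ FamS G Z k) : EH G Z :=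
  ⟨β, le_iSup (FamS G Z) k h⟩

variable {G' : Type} [Group G'] [TopologicalSpace G'] [Sys G'] {Z' : Type} [TopologicalSpace Z']
  [MulAction G' Z']

open Classical in
/-- The map induced by levelwise linear maps (zero if they do not preserve families). -/
noncomputable def EH.lift (φ : ∀ M, BM (Bq G Z M) →ₗ[ℂ] BM (Bq G' Z' M)) : EH G Z →ₗ[ℂ] EH G' Z' :=
  if h : ∀ β ∈ EHs G Z, LinearMap.pi (fun M => φ M ∘ₗ LinearMap.proj M) β ∈ EHs G' Z' then
    (LinearMap.pi fun M => φ M ∘ₗ LinearMap.proj M).restrict h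
  else 0

/-- Maps of approximations compatible with the inclusions; `c` is the relative dimension of the
classifying spaces. -/
structure IsLev (F : ∀ M, Bq G Z M → Bq G' Z' M) (c : ℤ) : Prop where
  cont : ∀ M, Continuous (F M)
  comm : ∀ M x, F (M + 1) (binc G Z M x) = binc G' Z' M (F M x)
  cart : ∀ M, F (M + 1) ⁻¹' range (binc G' Z' M) ⊆ range (binc G Z M)
  col : ∀ M, Cohom (range (binc G Z M)) (pull (F (M + 1)) (ecol G' Z' M)) (ecol G Z M)
  dim : ∀ M, Sys.dim G M = Sys.dim G' M + c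

/-- push-forward along proper level maps -/
noncomputable def lpush (F : ∀ M, Bq G Z M → Bq G' Z' M) : EH G Z →ₗ[ℂ] EH G' Z' :=
  EH.lift fun M => push (F M)

/-- cap product with a family of cohomology classes -/
noncomputable def eact (c : ∀ M, H (Bq G Z M)) : EH G Z →ₗ[ℂ] EH G Z := EH.lift fun M => cap (c M)

section nice

variable [Nice Z'] [ContinuousSMul G' Z']

/-- restriction along open level maps -/
noncomputable def lres (F : ∀ M, Bq G Z M → Bq G' Z' M) : EH G' Z' →ₗ[ℂ] EH G Z :=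
  EH.lift fun M => res (F M)

/-- Gysin pull-back along closed level maps -/
noncomputable def lgys (F : ∀ M, Bq G Z M → Bq G' Z' M) (t : ∀ M, Coch (Bq G' Z' M)) :
    EH G' Z' →ₗ[ℂ] EH G Z := EH.lift fun M => gys (F M) (t M)

end nice

section equiv

variable {X U : Type} [TopologicalSpace X] [MulAction G X] [TopologicalSpace U] [MulAction G U]

/-- push-forward along a proper equivariant map -/
noncomputable def epush (f : Z →[G] X) : EH G Z →ₗ[ℂ] EH G X := lpush (smap f)

variable [Nice X] [ContinuousSMul G X]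

/-- restriction to an invariant open part -/
noncomputable def eres (j : U →[G] X) : EH G X →ₗ[ℂ] EH G U := lres (smap j)

/-- Gysin pull-back to an invariant closed part -/
noncomputable def egys (i : Z →[G] X) (t : ∀ M, Coch (Bq G X M)) : EH G X →ₗ[ℂ] EH G Z :=
  lgys (smap i) t

/-- the boundary map -/
noncomputable def ebdy (i : Z →[G] X) (j : U →[G] X) : EH G U →ₗ[ℂ] EH G Z :=
  EH.lift fun M => bdy (smap i M) (smap j M)

end equiv

section prod

variable {G₁ G₂ Z₁ Z₂ : Type} [Group G₁] [TopologicalSpace G₁] [Sys G₁] [Group G₂]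
  [TopologicalSpace G₂] [Sys G₂] [TopologicalSpace Z₁] [MulAction G₁ Z₁] [TopologicalSpace Z₂]
  [MulAction G₂ Z₂]

/-- The approximations for `(G, Z)` are the products of those for `(G₁, Z₁)` and `(G₂, Z₂)`. -/
structure IsProd (p₁ : ∀ M, Bq G Z M → Bq G₁ Z₁ M) (p₂ : ∀ M, Bq G Z M → Bq G₂ Z₂ M) : Prop where
  homeo : ∀ M, IsHomeomorph fun x => (p₁ M x, p₂ M x)
  comm₁ : ∀ M x, p₁ (M + 1) (binc G Z M x) = binc G₁ Z₁ M (p₁ M x)
  comm₂ : ∀ M x, p₂ (M + 1) (binc G Z M x) = binc G₂ Z₂ M (p₂ M x)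
  col : ∀ M, Cohom (range (binc G Z M))
    (pull (p₁ (M + 1)) (ecol G₁ Z₁ M) * pull (p₂ (M + 1)) (ecol G₂ Z₂ M)) (ecol G Z M)
  dim : ∀ M, Sys.dim G M = Sys.dim G₁ M + Sys.dim G₂ M

/-- the cross product -/
noncomputable def lcross (p₁ : ∀ M, Bq G Z M → Bq G₁ Z₁ M) (p₂ : ∀ M, Bq G Z M → Bq G₂ Z₂ M) :
    EH G₁ Z₁ →ₗ[ℂ] EH G₂ Z₂ →ₗ[ℂ] EH G Z :=
  Classical.epsilon fun φ => ∀ β₁ β₂ M,
    (φ β₁ β₂).1 M = cross (p₁ M) (p₂ M) (β₁.1 M) (β₂.1 M)

end prod

section ring

variable (G Z)

/-- The inclusions as continuous maps. -/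
noncomputable def bincC (M : ℕ) : C(Bq G Z M, Bq G Z (M + 1)) :=
  Bor.mapC (MonoidHom.id _) ⟨fun x => (x.1, Sys.inc M x.2),
    continuous_fst.prodMk ((Sys.inc_closed M).continuous.comp continuous_snd)⟩
    fun g x => Prod.ext rfl (Sys.inc_smul M g x.2)

/-- The maps to the classifying space as continuous maps. -/
noncomputable def bptC (M : ℕ) : C(Bq G Z M, Bq G Unit M) :=
  Bor.mapC (MonoidHom.id _) ⟨fun x => ((), x.2), by fun_prop⟩ fun _ _ => rfl

/-- Compatible families of cohomology classes of degree `k`. -/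
def HSdeg (k : ℤ) : Set (∀ M, H (Bq G Z M)) :=
  {c | ∀ M, H.map (bincC G Z M) (c (M + 1)) = c M ∧ H.IsDeg k (c M)}

/-- The equivariant cohomology ring. -/
noncomputable def HS : Subring (∀ M, H (Bq G Z M)) := Subring.closure (⋃ k, HSdeg G Z k)

variable {G Z}

/-- The action of `H_G(pt)`. -/
noncomputable instance : SMul (HS G Unit) (EH G Z) :=
  ⟨fun r β => eact (fun M => H.map (bptC G Z M) (r.1 M)) β⟩

end ring

/-- All approximations have vanishing cohomology with compact supports. -/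
def ENull (G : Type) [Group G] [TopologicalSpace G] [Sys G] (Z : Type) [TopologicalSpace Z]
    [MulAction G Z] : Prop := ∀ M, Subsingleton (Hc (Bq G Z M))

end Vale.Agent.P291Z
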